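import Vale.Agent.P278.Osg1

/-!
P278 task Osg2 (Osgood): complex differentiable on an open set of a finite-dimensional complex space
implies analytic.

Plan. Fix `x ∈ U`, `closedBall x (2r) ⊆ U`, `‖f‖ ≤ M` there. Cauchy estimate (one variable, along
`c ↦ g (y + c • v)`, `Complex.norm_deriv_le_of_forall_mem_sphere_norm_le`): if `g` is differentiable on
`U`, `‖g‖ ≤ N` on `closedBall y t ⊆ U`, then `‖fderiv ℂ g y‖ ≤ N / t`. Iterating with `osg_iter`
and `norm_fderiv_iteratedFDeriv`: for `t > 0` and `k` with `k t ≤ r`, by induction on `k`,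
`‖iteratedFDeriv ℂ k f y‖ ≤ M / t ^ k` on `closedBall x (2r - k t)`; with `t = r / n`:
`‖iteratedFDeriv ℂ n f x‖ ≤ M (n / r) ^ n`, and `n ^ n / n! ≤ exp n` (`Real.pow_div_factorial_le_exp`).
So the series `p n = (n! : ℂ)⁻¹ • iteratedFDeriv ℂ n f x` has `‖p n‖ (r / 3) ^ n ≤ M`
(`FormalMultilinearSeries.le_radius_of_bound`). For `‖y‖ < r / 3` the one variable function
`h c = f (x + c • y)` is differentiable on `ball 0 2`, so `Complex.hasSum_taylorSeries_on_ball` at
`c = 1` gives `HasSum (fun n => (n!)⁻¹ • iteratedDeriv n h 0) (f (x + y))`, and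
`iteratedDeriv n h 0 = iteratedFDeriv ℂ n f x (fun _ => y)` (prove by induction
`iteratedDeriv n h c = iteratedFDeriv ℂ n f (x + c • y) (fun _ => y)` on `ball 0 2`, using
`iteratedFDeriv_succ_apply_left` and `osg_iter`). Conclude `HasFPowerSeriesOnBall f p x _`.
Auxiliary names: start with `osg2_`.
-/

namespace Vale.Agent.P278

open scoped ContDiff Topology

theorem osg2_line {E F : Type*} [NormedAddCommGroup E] [NormedSpace ℂ E]
    [NormedAddCommGroup F] [NormedSpace ℂ F] {g : E → F} {y v : E} {c : ℂ}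
    (h : DifferentiableAt ℂ g (y + c • v)) :
    HasDerivAt (fun c : ℂ => g (y + c • v)) (fderiv ℂ g (y + c • v) v) c := by
  have h1 : HasDerivAt (fun c : ℂ => y + c • v) v c := by
    simpa using ((hasDerivAt_id c).smul_const v).const_add y
  exact h.hasFDerivAt.comp_hasDerivAt c h1

theorem osg2_cauchy {E F : Type*} [NormedAddCommGroup E] [NormedSpace ℂ E]
    [NormedAddCommGroup F] [NormedSpace ℂ F] {g : E → F} {U : Set E} (hU : IsOpen U)
    (hg : DifferentiableOn ℂ g U) {y : E} {t N : ℝ} (ht : 0 < t) (hs : Metric.closedBall y t ⊆ U)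
    (hN : ∀ z ∈ Metric.closedBall y t, ‖g z‖ ≤ N) : ‖fderiv ℂ g y‖ ≤ N / t := by
  have N0 : 0 ≤ N := (norm_nonneg _).trans (hN y (Metric.mem_closedBall_self ht.le))
  refine ContinuousLinearMap.opNorm_le_of_unit_norm (by positivity) fun v hv => ?_
  have hm : ∀ c ∈ Metric.closedBall (0 : ℂ) t, y + c • v ∈ Metric.closedBall y t := fun c hc => by
    rw [add_mem_closedBall_iff_norm, norm_smul, hv, mul_one]
    exact mem_closedBall_zero_iff.1 hc
  have hd := fun c hc => osg2_line (hg.differentiableAt (hU.mem_nhds (hs (hm c hc))))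
  have h := Complex.norm_deriv_le_of_forall_mem_sphere_norm_le (f := fun c : ℂ => g (y + c • v)) ht
    (DifferentiableOn.diffContOnCl_ball
      (fun c hc => (hd c hc).differentiableAt.differentiableWithinAt) subset_rfl)
    fun c hc => hN _ (hm c (Metric.sphere_subset_closedBall hc))
  rwa [(hd 0 (Metric.mem_closedBall_self ht.le)).deriv, zero_smul, add_zero] at h

theorem osg2_iter {E F : Type*} [NormedAddCommGroup E] [NormedSpace ℂ E] [FiniteDimensional ℂ E]
    [NormedAddCommGroup F] [NormedSpace ℂ F] [CompleteSpace F] {f : E → F} {U : Set E}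
    (hU : IsOpen U) (hf : DifferentiableOn ℂ f U) {t M : ℝ} (ht : 0 < t) (k : ℕ) :
    ∀ y : E, Metric.closedBall y (k * t) ⊆ U → (∀ z ∈ Metric.closedBall y (k * t), ‖f z‖ ≤ M) →
      ‖iteratedFDeriv ℂ k f y‖ ≤ M / t ^ k := by
  induction k with
  | zero =>
    intro y _ h
    rw [norm_iteratedFDeriv_zero, pow_zero, div_one]
    exact h y (by simp)
  | succ k ih =>
    intro y h1 h2
    have h3 : ∀ z ∈ Metric.closedBall y t,
        Metric.closedBall z (k * t) ⊆ Metric.closedBall y ((k + 1 : ℕ) * t) := fun z hz =>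
      Metric.closedBall_subset_closedBall' (by
        have := Metric.mem_closedBall.1 hz
        push_cast
        linarith)
    rw [← norm_fderiv_iteratedFDeriv, pow_succ, ← div_div]
    exact osg2_cauchy hU (osg_iter hU hf k) ht
      (fun z hz => h1 (h3 z hz (Metric.mem_closedBall_self (by positivity))))
      fun z hz => ih z ((h3 z hz).trans h1) fun w hw => h2 w (h3 z hz hw)

theorem osg2_deriv {E F : Type*} [NormedAddCommGroup E] [NormedSpace ℂ E] [FiniteDimensional ℂ E]
    [NormedAddCommGroup F] [NormedSpace ℂ F] [CompleteSpace F] {f : E → F} {U : Set E}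
    (hU : IsOpen U) (hf : DifferentiableOn ℂ f U) {x y : E} {V : Set ℂ} (hV : IsOpen V)
    (h : ∀ c ∈ V, x + c • y ∈ U) (n : ℕ) : ∀ c ∈ V,
      iteratedDeriv n (fun c : ℂ => f (x + c • y)) c =
        iteratedFDeriv ℂ n f (x + c • y) fun _ => y := by
  induction n with
  | zero => exact fun c _ => rfl
  | succ n ih =>
    intro c hc
    rw [iteratedDeriv_succ,
      Filter.EventuallyEq.deriv_eq (Filter.eventually_of_mem (hV.mem_nhds hc) ih)]
    exact ((ContinuousMultilinearMap.apply ℂ (fun _ : Fin n => E) F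
      fun _ => y).hasFDerivAt.comp_hasDerivAt c
        (osg2_line ((osg_iter hU hf n).differentiableAt (hU.mem_nhds (h c hc))))).deriv

theorem osgood {E F : Type*} [NormedAddCommGroup E] [NormedSpace ℂ E] [FiniteDimensional ℂ E]
    [NormedAddCommGroup F] [NormedSpace ℂ F] [CompleteSpace F] {f : E → F} {U : Set E}
    (hU : IsOpen U) (hf : DifferentiableOn ℂ f U) : AnalyticOnNhd ℂ f U := by
  intro x hx
  have := FiniteDimensional.proper ℂ E
  obtain ⟨r, hr, hs⟩ := Metric.nhds_basis_closedBall.mem_iff.1 (hU.mem_nhds hx)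
  obtain ⟨M, hM⟩ := (isCompact_closedBall x r).exists_bound_of_continuousOn
    (hf.continuousOn.mono hs)
  have M0 : 0 ≤ M := (norm_nonneg _).trans (hM x (Metric.mem_closedBall_self hr.le))
  lift r to NNReal using hr.le
  refine ⟨fun n => (n.factorial : ℂ)⁻¹ • iteratedFDeriv ℂ n f x, (r / 3 : NNReal),
    FormalMultilinearSeries.le_radius_of_bound _ M fun n => ?_,
    ENNReal.coe_pos.2 (div_pos hr (by norm_num)), fun {y} hy => ?_⟩
  · have f0 : (0 : ℝ) < n.factorial := by exact_mod_cast n.factorial_pos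
    rw [norm_smul, norm_inv, Complex.norm_natCast]
    rcases n.eq_zero_or_pos with rfl | hn
    · simpa using hM x (Metric.mem_closedBall_self hr.le)
    have n0 : (0 : ℝ) < n := by exact_mod_cast hn
    have e : (n : ℝ) * (r / n) = r := mul_div_cancel₀ _ n0.ne'
    have h1 := osg2_iter hU hf (div_pos hr n0) n x (e.symm ▸ hs) (e.symm ▸ hM)
    have h2 : (n : ℝ) ^ n / n.factorial ≤ 3 ^ n := by
      refine (Real.pow_div_factorial_le_exp _ n0.le n).trans ?_
      rw [← Real.exp_one_pow]
      exact pow_le_pow_left₀ (Real.exp_pos 1).le Real.exp_one_lt_three.le n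
    calc _ ≤ (n.factorial : ℝ)⁻¹ * (M / (r / n) ^ n) * ((r / 3 : NNReal) : ℝ) ^ n := by gcongr
      _ = M * ((n : ℝ) ^ n / n.factorial / 3 ^ n) := by
        push_cast
        rw [div_pow, div_pow]
        field_simp
      _ ≤ M := mul_le_of_le_one_right M0 ((div_le_one (by positivity)).2 h2)
  · rw [Metric.eball_coe, mem_ball_zero_iff] at hy
    have h1 : ∀ c ∈ Metric.ball (0 : ℂ) 2, x + c • y ∈ U := fun c hc => hs (by
      rw [add_mem_closedBall_iff_norm, norm_smul]
      have h2 := mem_ball_zero_iff.1 hc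
      push_cast at hy
      nlinarith [norm_nonneg c, norm_nonneg y])
    have h2 := Complex.hasSum_taylorSeries_on_ball (f := fun c : ℂ => f (x + c • y)) (c := 0)
      (r := 2) (z := 1)
      (fun c hc => (osg2_line (hf.differentiableAt
        (hU.mem_nhds (h1 c hc)))).differentiableAt.differentiableWithinAt) (by simp)
    simp only [osg2_deriv hU hf Metric.isOpen_ball h1 _ 0 (by simp), sub_zero, one_pow, one_smul,
      zero_smul, add_zero] at h2
    exact h2

theorem osgood_at {E F : Type*} [NormedAddCommGroup E] [NormedSpace ℂ E] [FiniteDimensional ℂ E]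
    [NormedAddCommGroup F] [NormedSpace ℂ F] [CompleteSpace F] {f : E → F} {x : E}
    (hf : ∀ᶠ y in 𝓝 x, DifferentiableAt ℂ f y) : AnalyticAt ℂ f x := by
  obtain ⟨U, hU, hUo, hx⟩ := eventually_nhds_iff.1 hf
  exact osgood hUo (fun y hy => (hU y hy).differentiableWithinAt) x hx

end Vale.Agent.P278
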