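import Vale.Agent.P278.Osg2
import Vale.Agent.P255.Flow

/-!
P278 task FrobODE: the holomorphic Frobenius parametrisation by radial integral curves.

Plan. On the real space `E × E` take the field `Vf (y, b) = (σ y b, 0)`, smooth on `W ×ˢ univ`
(`osg_smooth`, `ContDiffOn.restrict_scalars`), and `Vale.Agent.P255.exists_flow` at `(y₀, 0)`:
`ε, r, φ, Y`. Fix `τ = ε/2`, `j x = (y₀ + p (x - y₀), τ⁻¹ • (1 - p) (x - y₀))`, `H x = (φ (j x) τ).1`.
For `z = (a, b)` in the ball: `(φ z t).2 = b` and `(Y z t h).2 = h.2` (zero derivative); with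
`Γ t = (φ z t).1`, `ξ t = (Y z t h).1` one has `ξ' = fderiv ℂ σ (Γ t) (ξ t) b + σ (Γ t) h.2`, `ξ 0 = h.1`.
Linear uniqueness lemma: if `u' t = fderiv ℂ σ (Γ t) (u t) b` on `Icc 0 τ`, `u 0 = 0`, then `u τ = 0`
(`t ↦ fderiv ℂ σ (Γ t)` is continuous on the compact interval by `osg_fderiv`, so bounded;
`norm_le_gronwallBound_of_norm_deriv_right_le`, `gronwallBound_ε0_δ0`).
(a) `u = ξ[I • h] - I • ξ[h]` shows that `h ↦ (Y z τ h).1` is complex linear, so `H` is complex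
differentiable (`hasFDerivAt_of_restrictScalars` / `differentiableAt_iff_restrictScalars`).
(b) for `h = (0, c')`, `u t = ξ t - t • σ (Γ t) c'` satisfies the linear equation by `hsym`; take
`c' = τ⁻¹ • (1 - p) c` (use `hp`). (c) at `x = y₀`: `b = 0`, `Γ` is constant, `h = (p v, 0)`, `ξ' = 0`.
Auxiliary names: start with `fode_`.
-/

namespace Vale.Agent.P278

open scoped Topology

theorem fode_const {F : Type*} [NormedAddCommGroup F] [NormedSpace ℝ F] {f : ℝ → F} {τ : ℝ}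
    (hf : ∀ t ∈ Set.Icc 0 τ, HasDerivAt f 0 t) : ∀ t ∈ Set.Icc 0 τ, f t = f 0 :=
  constant_of_has_deriv_right_zero
    (fun t ht => (hf t ht).continuousAt.continuousWithinAt)
    fun t ht => (hf t (Set.Ico_subset_Icc_self ht)).hasDerivWithinAt

theorem fode_uniq {E : Type*} [NormedAddCommGroup E] [NormedSpace ℂ E] [FiniteDimensional ℂ E]
    [NormedSpace ℝ E] {σ : E → E →L[ℂ] E} {W : Set E} (hW : IsOpen W)
    (hσ : DifferentiableOn ℂ σ W) {τ : ℝ} (hτ : 0 ≤ τ) {Γ u : ℝ → E} {b : E}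
    (hΓ : ContinuousOn Γ (Set.Icc 0 τ)) (hΓW : ∀ t ∈ Set.Icc 0 τ, Γ t ∈ W)
    (hu : ∀ t ∈ Set.Icc 0 τ, HasDerivAt u (fderiv ℂ σ (Γ t) (u t) b) t) (h0 : u 0 = 0) :
    u τ = 0 := by
  have : CompleteSpace E := FiniteDimensional.complete ℂ E
  have hc : ContinuousOn (fun t => fderiv ℂ σ (Γ t)) (Set.Icc 0 τ) :=
    (osg_fderiv hW hσ).continuousOn.comp hΓ hΓW
  obtain ⟨C, hC⟩ := IsCompact.exists_bound_of_continuousOn (E := E →L[ℂ] E →L[ℂ] E)
    isCompact_Icc hc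
  refine eq_zero_of_abs_deriv_le_mul_abs_self_of_eq_zero_right (K := C * ‖b‖)
    (f' := fun t => fderiv ℂ σ (Γ t) (u t) b)
    (fun t ht => (hu t ht).continuousAt.continuousWithinAt)
    (fun t ht => (hu t (Set.Ico_subset_Icc_self ht)).hasDerivWithinAt) h0 (fun t ht => ?_) τ
    ⟨hτ, le_rfl⟩
  have h1 := hC t (Set.Ico_subset_Icc_self ht)
  calc ‖fderiv ℂ σ (Γ t) (u t) b‖ ≤ ‖fderiv ℂ σ (Γ t)‖ * ‖u t‖ * ‖b‖ :=
        ContinuousLinearMap.le_opNorm₂ _ _ _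
    _ ≤ C * ‖u t‖ * ‖b‖ := by gcongr
    _ = C * ‖b‖ * ‖u t‖ := by ring

theorem fode_smooth {E : Type*} [NormedAddCommGroup E] [NormedSpace ℂ E] [FiniteDimensional ℂ E]
    [NormedSpace ℝ E] [IsScalarTower ℝ ℂ E] {σ : E → E →L[ℂ] E} {W : Set E} (hW : IsOpen W)
    (hσ : DifferentiableOn ℂ σ W) :
    ContDiffOn ℝ (⊤ : ℕ∞) (fun z : E × E => ((σ z.1 z.2, 0) : E × E)) (W ×ˢ Set.univ) := by
  have : CompleteSpace E := FiniteDimensional.complete ℂ E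
  have h1 : ContDiffOn ℂ (⊤ : ℕ∞) (fun z : E × E => σ z.1) (W ×ˢ Set.univ) :=
    (osg_smooth hW hσ).comp contDiffOn_fst fun z hz => hz.1
  have h2 : ContDiffOn ℂ (⊤ : ℕ∞) (fun z : E × E => ((σ z.1 z.2, 0) : E × E)) (W ×ˢ Set.univ) :=
    (h1.clm_apply contDiffOn_snd).prodMk contDiffOn_const
  exact h2.restrict_scalars ℝ

theorem fode_fderiv {E : Type*} [NormedAddCommGroup E] [NormedSpace ℂ E]
    [NormedSpace ℝ E] [IsScalarTower ℝ ℂ E] {σ : E → E →L[ℂ] E} {z : E × E}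
    (hσ : DifferentiableAt ℂ σ z.1) (h : E × E) :
    fderiv ℝ (fun z : E × E => ((σ z.1 z.2, 0) : E × E)) z h =
      (fderiv ℂ σ z.1 h.1 z.2 + σ z.1 h.2, 0) := by
  have h1 : HasFDerivAt (fun z : E × E => σ z.1)
      ((fderiv ℂ σ z.1).comp (ContinuousLinearMap.fst ℂ E E)) z :=
    hσ.hasFDerivAt.comp z hasFDerivAt_fst
  have h2 := (h1.clm_apply (hasFDerivAt_snd (𝕜 := ℂ) (p := z))).prodMk
    (hasFDerivAt_const (𝕜 := ℂ) (0 : E) z)
  have h3 := (h2.restrictScalars ℝ).fderiv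
  rw [h3]
  simp [add_comm]

theorem fode_flow {E : Type*} [NormedAddCommGroup E] [NormedSpace ℂ E] [FiniteDimensional ℂ E]
    [NormedSpace ℝ E] [IsScalarTower ℝ ℂ E] [FiniteDimensional ℝ E]
    {σ : E → E →L[ℂ] E} {W : Set E} {y₀ : E} (hW : IsOpen W) (hy : y₀ ∈ W)
    (hσ : DifferentiableOn ℂ σ W) :
    ∃ τ > (0 : ℝ), ∃ r > (0 : ℝ), ∃ (Γ : E × E → ℝ → E) (X : E × E → ℝ → E × E →L[ℝ] E),
      ∀ z ∈ Metric.ball ((y₀, 0) : E × E) r, Γ z 0 = z.1 ∧ (∀ h, X z 0 h = h.1) ∧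
        HasFDerivAt (fun z' => Γ z' τ) (X z τ) z ∧ ∀ t ∈ Set.Icc 0 τ, Γ z t ∈ W ∧
          HasDerivAt (Γ z) (σ (Γ z t) z.2) t ∧ ∀ h, HasDerivAt (fun s => X z s h)
            (fderiv ℂ σ (Γ z t) (X z t h) z.2 + σ (Γ z t) h.2) t := by
  obtain ⟨ε, hε, r, hr, φ, Y, hφ, -⟩ := Vale.Agent.P255.exists_flow
    (hW.prod isOpen_univ) (fode_smooth hW hσ) (z₀ := (y₀, 0)) ⟨hy, trivial⟩
  have hsub : ∀ t ∈ Set.Icc 0 (ε / 2), t ∈ Set.Ioo (-ε) ε := fun t ht =>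
    ⟨by linarith [ht.1], by linarith [ht.2]⟩
  refine ⟨ε / 2, by positivity, r, hr, fun z t => (φ z t).1,
    fun z t => (ContinuousLinearMap.fst ℝ E E).comp (Y z t), fun z hz => ?_⟩
  obtain ⟨h0, hY0, h⟩ := hφ z hz
  have hY : ∀ t ∈ Set.Icc 0 (ε / 2), ∀ k : E × E, HasDerivAt (fun s => Y z s k)
      ((fderiv ℂ σ (φ z t).1 (Y z t k).1 (φ z t).2 + σ (φ z t).1 (Y z t k).2, 0) : E × E) t := by
    intro t ht k
    obtain ⟨h1, -, h3, -⟩ := h t (hsub t ht)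
    have h4 := h3.clm_apply (hasDerivAt_const t k)
    simp only [map_zero, add_zero, ContinuousLinearMap.comp_apply] at h4
    rwa [fode_fderiv (hσ.differentiableAt (hW.mem_nhds h1.1))] at h4
  have hb : ∀ t ∈ Set.Icc 0 (ε / 2), (φ z t).2 = z.2 := by
    intro t ht
    have h1 := fode_const (f := fun s => (φ z s).2)
      (fun s hs => (h s (hsub s hs)).2.1.snd) t ht
    simpa [h0] using h1
  have hk : ∀ t ∈ Set.Icc 0 (ε / 2), ∀ k : E × E, (Y z t k).2 = k.2 := by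
    intro t ht k
    have h1 := fode_const (f := fun s => (Y z s k).2) (fun s hs => (hY s hs k).snd) t ht
    simpa [hY0] using h1
  refine ⟨by simp [h0], fun k => by simp [hY0], ?_, fun t ht => ⟨(h t (hsub t ht)).1.1, ?_, ?_⟩⟩
  · exact (h _ (hsub _ ⟨by positivity, le_rfl⟩)).2.2.2.fst
  · have h1 := (h t (hsub t ht)).2.1.fst
    simp only [hb t ht] at h1
    exact h1
  · intro k
    have h1 := (hY t ht k).fst
    simp only [hb t ht, hk t ht] at h1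
    exact h1

theorem fode_lin {E : Type*} [NormedAddCommGroup E] [NormedSpace ℂ E] [FiniteDimensional ℂ E]
    [NormedSpace ℝ E] [IsScalarTower ℝ ℂ E] {σ : E → E →L[ℂ] E} {W : Set E} (hW : IsOpen W)
    (hσ : DifferentiableOn ℂ σ W) {τ : ℝ} (hτ : 0 ≤ τ) {Γ : ℝ → E} {X : ℝ → E × E →L[ℝ] E}
    {b : E} (hX0 : ∀ h, X 0 h = h.1)
    (h : ∀ t ∈ Set.Icc 0 τ, Γ t ∈ W ∧ HasDerivAt Γ (σ (Γ t) b) t ∧ ∀ h,
      HasDerivAt (fun s => X s h) (fderiv ℂ σ (Γ t) (X t h) b + σ (Γ t) h.2) t) :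
    ∃ L : E × E →L[ℂ] E, L.restrictScalars ℝ = X τ := by
  have hc : ∀ (c : ℂ) (k : E × E), X τ (c • k) = c • X τ k := by
    intro c k
    have h1 := fode_uniq hW hσ hτ (Γ := Γ) (u := fun s => X s (c • k) - c • X s k) (b := b)
      (fun t ht => (h t ht).2.1.continuousAt.continuousWithinAt) (fun t ht => (h t ht).1)
      (fun t ht => ?_) (by simp [hX0])
    · exact sub_eq_zero.1 h1
    · have h2 := ((h t ht).2.2 (c • k)).sub (((h t ht).2.2 k).const_smul c)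
      refine h2.congr_deriv ?_
      simp only [Prod.smul_snd, map_smul, map_sub, smul_add, sub_apply,
        smul_apply]
      abel
  refine ⟨⟨⟨⟨X τ, (X τ).map_add⟩, hc⟩, (X τ).continuous⟩, ?_⟩
  ext k <;> rfl

theorem fode_sym {E : Type*} [NormedAddCommGroup E] [NormedSpace ℂ E] [FiniteDimensional ℂ E]
    [NormedSpace ℝ E] [IsScalarTower ℝ ℂ E] {σ : E → E →L[ℂ] E} {W : Set E} (hW : IsOpen W)
    (hσ : DifferentiableOn ℂ σ W)
    (hsym : ∀ y ∈ W, ∀ b c, fderiv ℂ σ y (σ y b) c = fderiv ℂ σ y (σ y c) b)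
    {τ : ℝ} (hτ : 0 ≤ τ) {Γ : ℝ → E} {X : ℝ → E × E →L[ℝ] E}
    {b : E} (hX0 : ∀ h, X 0 h = h.1)
    (h : ∀ t ∈ Set.Icc 0 τ, Γ t ∈ W ∧ HasDerivAt Γ (σ (Γ t) b) t ∧ ∀ h,
      HasDerivAt (fun s => X s h) (fderiv ℂ σ (Γ t) (X t h) b + σ (Γ t) h.2) t) (c : E) :
    X τ (0, c) = (τ : ℂ) • σ (Γ τ) c := by
  have h1 := fode_uniq hW hσ hτ (Γ := Γ) (u := fun s => X s (0, c) - (s : ℂ) • σ (Γ s) c) (b := b)
    (fun t ht => (h t ht).2.1.continuousAt.continuousWithinAt) (fun t ht => (h t ht).1)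
    (fun t ht => ?_) (by simp [hX0])
  · exact sub_eq_zero.1 h1
  · obtain ⟨hW1, hΓ, hX⟩ := h t ht
    have hd : HasFDerivAt (fun y => σ y c) ((fderiv ℂ σ (Γ t)).flip c) (Γ t) := by
      have h2 := (hσ.differentiableAt (hW.mem_nhds hW1)).hasFDerivAt.clm_apply
        (hasFDerivAt_const (𝕜 := ℂ) c (Γ t))
      simpa using h2
    have h3 : HasDerivAt (fun s => σ (Γ s) c) (fderiv ℂ σ (Γ t) (σ (Γ t) b) c) t :=
      (hd.restrictScalars ℝ).comp_hasDerivAt t hΓ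
    have h4 : HasDerivAt (fun s : ℝ => (s : ℂ)) 1 t := Complex.ofRealCLM.hasDerivAt
    have h5 := (hX (0, c)).sub (h4.smul h3)
    refine h5.congr_deriv ?_
    rw [hsym _ hW1 b c]
    simp only [map_smul, map_sub, one_smul, sub_apply,
      smul_apply]
    abel

theorem frob_ode {E : Type*} [NormedAddCommGroup E] [NormedSpace ℂ E] [FiniteDimensional ℂ E]
    {σ : E → E →L[ℂ] E} {W : Set E} {y₀ : E} {p : E →L[ℂ] E} (hp : IsIdempotentElem p)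
    (hW : IsOpen W) (hy : y₀ ∈ W) (hσ : DifferentiableOn ℂ σ W)
    (hsym : ∀ y ∈ W, ∀ b c, fderiv ℂ σ y (σ y b) c = fderiv ℂ σ y (σ y c) b) :
    ∃ H : E → E, H y₀ = y₀ ∧ (∀ᶠ x in 𝓝 y₀, DifferentiableAt ℂ H x ∧
      ∀ c, fderiv ℂ H x ((1 - p) c) = σ (H x) ((1 - p) c)) ∧
      ∀ v, fderiv ℂ H y₀ (p v) = p v := by
  obtain ⟨τ, hτ, r, hr, Γ, X, hF⟩ := fode_flow hW hy hσ
  have hτc : (τ : ℂ) ≠ 0 := by exact_mod_cast hτ.ne'
  have hpp : ∀ v, p (p v) = p v := fun v => by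
    have h := congrArg (fun A : E →L[ℂ] E => A v) hp.eq
    simpa using h
  set J : E →L[ℂ] E × E := p.prod ((τ : ℂ)⁻¹ • (1 - p)) with hJ
  set j : E → E × E := fun x => ((y₀, 0) : E × E) + J (x - y₀) with hj
  have hjd : ∀ x, HasFDerivAt j J x := fun x => by
    have h1 := (J.hasFDerivAt.comp x ((hasFDerivAt_id x).sub_const y₀)).const_add
      ((y₀, 0) : E × E)
    exact h1
  have hj0 : j y₀ = (y₀, 0) := by simp [hj]
  have hball : ∀ᶠ x in 𝓝 y₀, j x ∈ Metric.ball ((y₀, 0) : E × E) r := by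
    apply (hjd y₀).continuousAt.eventually
    rw [hj0]
    exact Metric.ball_mem_nhds _ hr
  have hD : ∀ x, j x ∈ Metric.ball ((y₀, 0) : E × E) r →
      DifferentiableAt ℂ (fun x => Γ (j x) τ) x ∧
        ∀ v, fderiv ℂ (fun x => Γ (j x) τ) x v = X (j x) τ (J v) := by
    intro x hx
    obtain ⟨-, h1, h2, h3⟩ := hF _ hx
    obtain ⟨L, hL⟩ := fode_lin hW hσ hτ.le h1 h3
    have h4 : HasFDerivAt (fun z' => Γ z' τ) L (j x) := hasFDerivAt_of_restrictScalars ℝ h2 hL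
    have h5 : HasFDerivAt (fun x => Γ (j x) τ) (L.comp J) x := h4.comp x (hjd x)
    refine ⟨h5.differentiableAt, fun v => ?_⟩
    rw [h5.fderiv, ← hL]
    rfl
  have hb0 : ((y₀, 0) : E × E) ∈ Metric.ball ((y₀, 0) : E × E) r := Metric.mem_ball_self hr
  obtain ⟨k0, k1, -, k3⟩ := hF _ hb0
  refine ⟨fun x => Γ (j x) τ, ?_, ?_, fun v => ?_⟩
  · have h1 := fode_const (f := Γ (y₀, 0)) (fun t ht => by simpa using (k3 t ht).2.1) τ
      ⟨hτ.le, le_rfl⟩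
    simp only [hj0, h1, k0]
  · filter_upwards [hball] with x hx
    refine ⟨(hD x hx).1, fun c => ?_⟩
    obtain ⟨-, h1, -, h3⟩ := hF _ hx
    have h4 : J ((1 - p) c) = (0, (τ : ℂ)⁻¹ • (1 - p) c) := by
      simp [hJ, hpp]
    rw [(hD x hx).2, h4, fode_sym hW hσ hsym hτ.le h1 h3, map_smul, smul_smul,
      mul_inv_cancel₀ hτc, one_smul]
  · have h4 : J (p v) = (p v, 0) := by
      simp [hJ, hpp]
    rw [(hD y₀ hball.self_of_nhds).2, h4, hj0]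
    have h1 := fode_const (f := fun s => X (y₀, 0) s (p v, 0))
      (fun t ht => by simpa using (k3 t ht).2.2 (p v, 0)) τ ⟨hτ.le, le_rfl⟩
    simp only [h1, k1]

end Vale.Agent.P278
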