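import Vale.Agent.P278.Graph
import Vale.Agent.P278.FrobODE

/-!
P278 task FrobSub: holomorphic Frobenius theorem (first integrals of an involutive kernel field).

Plan. `exists_graph`, then `frob_ode` with `p = P y₀` on `W'`. `fderiv ℂ H y₀ = 1` (write
`v = p v + (1 - p) v`, `σ y₀ = 1 - p`). `H` is analytic at `y₀` (`osgood_at`), so
`HasStrictFDerivAt` / `ContDiffAt.toOpenPartialHomeomorph` gives a local inverse `G`, analytic
(`ContDiffAt.to_localInverse`) at `y₀`, with `H (G y) = y` near `y₀`, `G y₀ = y₀`, and `G (H x) = x` near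
`y₀`. Put `g = p ∘ G`. For `y` near `y₀`, `x = G y`: `fderiv G y ∘ fderiv H x = id` (chain rule for
`G ∘ H =ᶠ id` at `x`, `Eventually.eventually_nhds`), and for `P y v = 0`:
`v = σ y v = σ y ((1-p) v) = fderiv H x ((1-p) v)`, so `fderiv G y v = (1-p) v`, killed by `p`.
Auxiliary names: start with `fsub_`.
-/

namespace Vale.Agent.P278

open scoped Topology

theorem fsub_inv {E : Type*} [NormedAddCommGroup E] [NormedSpace ℂ E] [FiniteDimensional ℂ E]
    {H : E → E} {y₀ : E} (h0 : H y₀ = y₀) (hd : ∀ᶠ x in 𝓝 y₀, DifferentiableAt ℂ H x)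
    (h1 : ∀ v, fderiv ℂ H y₀ v = v) :
    ∃ G : E → E, Filter.Tendsto G (𝓝 y₀) (𝓝 y₀) ∧ (∀ᶠ y in 𝓝 y₀, DifferentiableAt ℂ G y) ∧
      (∀ᶠ y in 𝓝 y₀, H (G y) = y) ∧ (∀ᶠ x in 𝓝 y₀, G (H x) = x) ∧
      ∀ v, fderiv ℂ G y₀ v = v := by
  have : CompleteSpace E := FiniteDimensional.complete ℂ E
  have han : AnalyticAt ℂ H y₀ := osgood_at hd
  have hc : ContDiffAt ℂ 1 H y₀ := han.contDiffAt
  have hf : HasFDerivAt H ((ContinuousLinearEquiv.refl ℂ E : E ≃L[ℂ] E) : E →L[ℂ] E) y₀ := by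
    have h2 := hd.self_of_nhds.hasFDerivAt
    have h3 : fderiv ℂ H y₀ = ((ContinuousLinearEquiv.refl ℂ E : E ≃L[ℂ] E) : E →L[ℂ] E) := by
      ext v
      simp [h1]
    rwa [h3] at h2
  have hs := hc.hasStrictFDerivAt' hf one_ne_zero
  have hG : ContDiffAt ℂ 1 (hc.localInverse hf one_ne_zero) (H y₀) :=
    hc.to_localInverse hf one_ne_zero
  have hr : ∀ᶠ y in 𝓝 (H y₀), H (hc.localInverse hf one_ne_zero y) = y :=
    hs.eventually_right_inverse
  have hl : ∀ᶠ x in 𝓝 y₀, hc.localInverse hf one_ne_zero (H x) = x :=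
    hs.eventually_left_inverse
  have ht : Filter.Tendsto (hc.localInverse hf one_ne_zero) (𝓝 (H y₀)) (𝓝 y₀) :=
    hs.localInverse_tendsto
  have hD : HasStrictFDerivAt (hc.localInverse hf one_ne_zero)
      (((ContinuousLinearEquiv.refl ℂ E).symm : E ≃L[ℂ] E) : E →L[ℂ] E) (H y₀) :=
    hs.to_localInverse
  rw [h0] at hG hr ht hD
  refine ⟨hc.localInverse hf one_ne_zero, ht, ?_, hr, hl, fun v => ?_⟩
  · have h4 := hG.eventually (by simp)
    exact h4.mono fun y hy => hy.differentiableAt one_ne_zero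
  · rw [hD.hasFDerivAt.fderiv]
    simp

theorem frob_sub {E : Type*} [NormedAddCommGroup E] [NormedSpace ℂ E] [FiniteDimensional ℂ E]
    {P : E → E →L[ℂ] E} {W : Set E} {y₀ : E} (hW : IsOpen W) (hy : y₀ ∈ W)
    (hP : DifferentiableOn ℂ P W) (hid : ∀ y ∈ W, IsIdempotentElem (P y)) (hint : KerInv P W) :
    ∃ g : E → E, (∀ᶠ y in 𝓝 y₀, DifferentiableAt ℂ g y ∧ (∀ v, P y v = 0 → fderiv ℂ g y v = 0) ∧
      ∀ v, P y₀ (fderiv ℂ g y v) = fderiv ℂ g y v) ∧ fderiv ℂ g y₀ = P y₀ := by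
  obtain ⟨W', hW', hy', -, σ, hσ, hσ0, hσ1, hσ2, hsym⟩ := exists_graph hW hy hP hid hint
  have hp : IsIdempotentElem (P y₀) := hid y₀ hy
  have hpp : ∀ v, P y₀ (P y₀ v) = P y₀ v := fun v => by
    have h := congrArg (fun A : E →L[ℂ] E => A v) hp.eq
    simpa using h
  obtain ⟨H, hH0, hH1, hH2⟩ := frob_ode hp hW' hy' hσ hsym
  have hone : ∀ v, fderiv ℂ H y₀ v = v := fun v => by
    have h1 := hH1.self_of_nhds.2 v
    have h2 := hH2 v
    have h3 : v = P y₀ v + (1 - P y₀) v := by simp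
    rw [hH0, hσ0] at h1
    conv_lhs => rw [h3, map_add, h1, h2]
    simp [hpp]
  obtain ⟨G, hGt, hGd, hGr, hGl, hG1⟩ := fsub_inv hH0 (hH1.mono fun x hx => hx.1) hone
  refine ⟨fun y => P y₀ (G y), ?_, ?_⟩
  · have e1 := hGt.eventually hH1
    have e2 := hGt.eventually hGl.eventually_nhds
    filter_upwards [e1, e2, hGd, hGr, hW'.mem_nhds hy'] with y h1 h2 h3 h4 h5
    have hD : HasFDerivAt (fun y => P y₀ (G y)) ((P y₀).comp (fderiv ℂ G y)) y :=
      (P y₀).hasFDerivAt.comp y h3.hasFDerivAt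
    refine ⟨hD.differentiableAt, fun v hv => ?_, fun v => ?_⟩
    · rw [hD.fderiv]
      have h3' : HasFDerivAt G (fderiv ℂ G y) (H (G y)) := by
        rw [h4]
        exact h3.hasFDerivAt
      have hc : HasFDerivAt (G ∘ H) ((fderiv ℂ G y).comp (fderiv ℂ H (G y))) (G y) :=
        h3'.comp (G y) h1.1.hasFDerivAt
      have hi : HasFDerivAt (G ∘ H) (ContinuousLinearMap.id ℂ E) (G y) :=
        (hasFDerivAt_id (G y)).congr_of_eventuallyEq h2
      have hu := hc.unique hi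
      have h6 := congrArg (fun A : E →L[ℂ] E => A ((1 - P y₀) v)) hu
      simp only [ContinuousLinearMap.comp_apply, ContinuousLinearMap.id_apply] at h6
      rw [h1.2 v, h4, hσ2 y h5, hσ1 y h5 v hv] at h6
      simp [h6, hpp]
    · rw [hD.fderiv]
      simp [hpp]
  · have hD : HasFDerivAt (fun y => P y₀ (G y)) ((P y₀).comp (fderiv ℂ G y₀)) y₀ :=
      (P y₀).hasFDerivAt.comp y₀ hGd.self_of_nhds.hasFDerivAt
    rw [hD.fderiv]
    ext v
    simp [hG1]

end Vale.Agent.P278
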