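import Vale.Agent.P278.Base
import Vale.Agent.P278.FrobSub

/-!
P278 task AdLoc: a local biholomorphism straightening an integrable splitting of a vector space.

Plan. `g i` from `frob_sub` for `P i`. `L i : range (P i y₀) ≃L W i` (equal finite dimension,
`ContinuousLinearEquiv.ofFinrankEq`), `L v = fun i => L i ⟨P i y₀ v, _⟩`, a continuous linear equivalence
`E ≃L ∀ j, W j` (inverse `w ↦ ∑ i, (L i).symm (w i)`). `Ψ = L ∘ ∑ i, g i` is analytic at `y₀` (`osgood_at`)
with derivative `L`. Take `e₀ = ContDiffAt.toOpenPartialHomeomorph` (or the `HasStrictFDerivAt` version);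
its inverse is `ContDiffAt ℂ 1` at `Ψ y₀` (`ContDiffAt.to_localInverse` or
`OpenPartialHomeomorph.contDiffAt_symm`), hence differentiable nearby (`ContDiffAt.eventually`). Restrict
`e₀` (`restrOpen`) to an open neighbourhood `O ⊆ U` of `y₀` on which all eventual properties hold.
If `P i y v = v` then `P j y v = 0` for `j ≠ i`, so `fderiv Ψ y v = L (fderiv (g i) y v)` with
`fderiv (g i) y v` fixed by `P i y₀`, and its components `j ≠ i` vanish.
Auxiliary names: start with `adloc_`.
-/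

namespace Vale.Agent.P278

open scoped Topology

theorem adloc_equiv {ι : Type*} [Fintype ι] [DecidableEq ι] {W : ι → Type*}
    [∀ i, NormedAddCommGroup (W i)] [∀ i, NormedSpace ℂ (W i)] [∀ i, FiniteDimensional ℂ (W i)]
    {E : Type*} [NormedAddCommGroup E] [NormedSpace ℂ E] [FiniteDimensional ℂ E]
    {P : ι → E →L[ℂ] E} (hid : ∀ i, IsIdempotentElem (P i))
    (horth : ∀ i j, i ≠ j → P i * P j = 0) (hsum : ∑ i, P i = 1)
    (hr : ∀ i, Module.finrank ℂ (LinearMap.range (P i : E →ₗ[ℂ] E)) = Module.finrank ℂ (W i)) :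
    ∃ L : E ≃L[ℂ] ∀ j, W j, ∀ v j, P j v = 0 → L v j = 0 := by
  let L := fun i => LinearEquiv.ofFinrankEq _ _ (hr i)
  let M : E →ₗ[ℂ] ∀ j, W j :=
    LinearMap.pi fun i => (L i).toLinearMap ∘ₗ (P i : E →ₗ[ℂ] E).rangeRestrict
  have hM : ∀ v j, M v j = L j ⟨P j v, v, rfl⟩ := fun _ _ => rfl
  have h1 : Function.Injective M := (injective_iff_map_eq_zero M).2 fun v hv => by
    have h2 : ∀ j, P j v = 0 := fun j =>
      congrArg Subtype.val ((L j).map_eq_zero_iff.1 (congrFun hv j))
    simpa [sum_apply, h2] using (congrArg (· v) hsum).symm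
  have h2 : Function.Surjective M := fun w => by
    choose u hu using fun i => ((L i).symm (w i)).2
    refine ⟨∑ i, P i (u i), funext fun j => ?_⟩
    rw [hM, ← (L j).apply_symm_apply (w j)]
    refine congrArg _ (Subtype.ext ?_)
    rw [← hu j]
    simp only [map_sum]
    rw [Finset.sum_eq_single (f := fun x => P j (P x (u x))) j
      (fun i _ hi => congrArg (· (u i)) (horth j i hi.symm)) (by simp)]
    exact congrArg (· (u j)) (hid j)
  refine ⟨(LinearEquiv.ofBijective M ⟨h1, h2⟩).toContinuousLinearEquiv, fun v j h => ?_⟩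
  exact (hM v j).trans ((L j).map_eq_zero_iff.2 (Subtype.ext h))

theorem adapted_loc {ι : Type*} [Fintype ι] [DecidableEq ι] {W : ι → Type*}
    [∀ i, NormedAddCommGroup (W i)] [∀ i, NormedSpace ℂ (W i)] [∀ i, FiniteDimensional ℂ (W i)]
    {E : Type*} [NormedAddCommGroup E] [NormedSpace ℂ E] [FiniteDimensional ℂ E]
    {P : ι → E → E →L[ℂ] E} {U : Set E} {y₀ : E} (hU : IsOpen U) (hy : y₀ ∈ U)
    (hP : ∀ i, DifferentiableOn ℂ (P i) U) (hid : ∀ i, ∀ y ∈ U, IsIdempotentElem (P i y))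
    (horth : ∀ y ∈ U, ∀ i j, i ≠ j → P i y * P j y = 0) (hsum : ∀ y ∈ U, ∑ i, P i y = 1)
    (hint : ∀ i, KerInv (P i) U)
    (hr : ∀ i, Module.finrank ℂ (LinearMap.range (P i y₀ : E →ₗ[ℂ] E)) = Module.finrank ℂ (W i)) :
    ∃ e : OpenPartialHomeomorph E (∀ j, W j), y₀ ∈ e.source ∧ e.source ⊆ U ∧
      (∀ y ∈ e.source, DifferentiableAt ℂ e y) ∧ (∀ z ∈ e.target, DifferentiableAt ℂ e.symm z) ∧
      ∀ y ∈ e.source, ∀ i v, P i y v = v → pr W i (fderiv ℂ e y v) = fderiv ℂ e y v := by
  have : CompleteSpace E := FiniteDimensional.complete ℂ E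
  have : CompleteSpace (∀ j, W j) := FiniteDimensional.complete ℂ _
  obtain ⟨L, hL⟩ := adloc_equiv (fun i => hid i y₀ hy) (horth y₀ hy) (hsum y₀ hy) hr
  choose g hg hg0 using fun i => frob_sub hU hy (hP i) (hid i) (hint i)
  have h1 := Filter.eventually_all.2 hg
  have h2 : ∀ y, (∀ i, DifferentiableAt ℂ (g i) y) → HasFDerivAt (fun y => L (∑ i, g i y))
      ((L : E →L[ℂ] ∀ j, W j).comp (∑ i, fderiv ℂ (g i) y)) y := fun y h =>
    L.hasFDerivAt.comp y (HasFDerivAt.fun_sum fun i _ => (h i).hasFDerivAt)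
  have hc : ContDiffAt ℂ 1 (fun y => L (∑ i, g i y)) y₀ :=
    (osgood_at (h1.mono fun y h => (h2 y fun i => (h i).1).differentiableAt)).contDiffAt
  have hf : HasFDerivAt (fun y => L (∑ i, g i y)) (L : E →L[ℂ] ∀ j, W j) y₀ := by
    have h3 := h2 y₀ fun i => (h1.self_of_nhds i).1
    rwa [Finset.sum_congr rfl fun i _ => hg0 i, hsum y₀ hy, ContinuousLinearMap.one_def,
      ContinuousLinearMap.comp_id] at h3
  have h3 := hc.continuousAt.tendsto.eventually
    ((hc.to_localInverse hf one_ne_zero).eventually (by simp))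
  obtain ⟨O, hO, hO', hO0⟩ := eventually_nhds_iff.1 (h1.and (h3.and (hU.mem_nhds hy)))
  set e := hc.toOpenPartialHomeomorph _ hf one_ne_zero with he
  refine ⟨e.restrOpen O hO', ⟨hc.mem_toOpenPartialHomeomorph_source hf one_ne_zero, hO0⟩,
    fun y h => (hO y h.2).2.2, fun y h => (h2 y fun i => ((hO y h.2).1 i).1).differentiableAt,
    fun z h => ?_, fun y h i v hv => ?_⟩
  · have h4 := ((hO _ h.2).2.1).differentiableAt one_ne_zero
    have h5 : L (∑ i, g i (e.symm z)) = z := e.right_inv h.1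
    rwa [h5] at h4
  · obtain ⟨h4, -, h5⟩ := hO y h.2
    have h6 : fderiv ℂ (e.restrOpen O hO') y v = L (fderiv ℂ (g i) y v) := by
      rw [show fderiv ℂ (e.restrOpen O hO') y = _ from (h2 y fun i => (h4 i).1).fderiv,
        ContinuousLinearMap.comp_apply, sum_apply,
        Finset.sum_eq_single i (fun j _ hj => (h4 j).2.1 v ?_) (by simp)]
      · rfl
      · rw [← hv]
        exact congrArg (· v) (horth y h5 j i hj)
    rw [h6]
    funext j
    by_cases hj : j = i
    · subst hj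
      simp [pr]
    · rw [hL _ j (by
        rw [← (h4 i).2.2 v]
        exact congrArg (· (fderiv ℂ (g i) y v)) (horth y₀ hy j i hj))]
      simp [pr, hj]

end Vale.Agent.P278
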