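import Vale.Agent.P278.AdLoc
import Vale.Agent.P278.Proj
import Vale.Agent.P278.ChartB

/-!
P278 task Adapt: adapted charts exist.

Plan. `x ↦ finrank (D i x)` is locally constant (`finrank_span_eq_card` on the frame), hence constant
(`IsLocallyConstant.iff_exists_open`, `IsLocallyConstant.apply_eq_of_preconnectedSpace`); call it `r i`
(if `X` is empty take anything). Fix `x₀`, `φ = chartAt E x₀`, `T x = mfderiv φ x`, `S y = mfderiv φ.symm y`
(mutually inverse: `OpenPartialHomeomorph.MDifferentiable.mfderiv` for `mdifferentiable_chart`). Frames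
`s i j` on open `U i ∋ x₀`; `O = φ.target ∩ φ.symm ⁻¹' ⋂ i, U i`; `D' i y = (D i (φ.symm y)).comap (S y)`,
frames `y ↦ T (φ.symm y) (s i j (φ.symm y))` (`HolField.chart`); transport independence, span and
`IsInternal` along the equivalence (`DirectSum.isInternal_submodule_iff_iSupIndep_and_iSup_eq_top`,
or `Submodule.orderIsoMapComap`). `exists_proj` gives `P`; `P i y v = 0 ↔ S y v ∈ ⨆ j ∈ univ.erase i, D j _`
(write `v = ∑ j, P j y v`; conversely `Submodule.iSup_induction`), so `KerInv (P i) O` follows from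
`IsIntegrable.chart` for `hint (Finset.univ.erase i)`. `range (P i y₀) = D' i y₀` has rank `r i`
(`finrank_euclideanSpace_fin`). With `e` from `adapted_loc` put `ψ = φ.trans e`; `mfderiv_comp`.
Auxiliary names: start with `adapt_`.
-/

namespace Vale.Agent.P278

open scoped Manifold ContDiff Topology

theorem adapt_core {ι E : Type*} [Fintype ι] [DecidableEq ι] [NormedAddCommGroup E]
    [NormedSpace ℂ E] [FiniteDimensional ℂ E] {D : ι → E → Submodule ℂ E} {O : Set E}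
    (hO : IsOpen O) {T S : E → E →L[ℂ] E} (hTS : ∀ y ∈ O, ∀ v, T y (S y v) = v)
    (hST : ∀ y ∈ O, ∀ v, S y (T y v) = v) {r : ι → ℕ} (s : ∀ i, Fin (r i) → E → E)
    (hs : ∀ i j, DifferentiableOn ℂ (fun y => T y (s i j y)) O)
    (hli : ∀ y ∈ O, ∀ i, LinearIndependent ℂ (fun j => s i j y))
    (hsp : ∀ y ∈ O, ∀ i, Submodule.span ℂ (Set.range fun j => s i j y) = D i y)
    (hint : ∀ y ∈ O, DirectSum.IsInternal (fun i => D i y))
    (hI : ∀ i, ∀ U ⊆ O, IsOpen U → ∀ s t : E → E, DifferentiableOn ℂ s U →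
      DifferentiableOn ℂ t U → (∀ y ∈ U, S y (s y) ∈ ⨆ j ∈ Finset.univ.erase i, D j y) →
      (∀ y ∈ U, S y (t y) ∈ ⨆ j ∈ Finset.univ.erase i, D j y) →
      ∀ y ∈ U, S y (VectorField.lieBracket ℂ s t y) ∈ ⨆ j ∈ Finset.univ.erase i, D j y)
    {y₀ : E} (hy₀ : y₀ ∈ O) :
    ∃ e : OpenPartialHomeomorph E (∀ j, EuclideanSpace ℂ (Fin (r j))), y₀ ∈ e.source ∧
      e.source ⊆ O ∧ (∀ y ∈ e.source, DifferentiableAt ℂ e y) ∧
      (∀ z ∈ e.target, DifferentiableAt ℂ e.symm z) ∧ ∀ y ∈ e.source, ∀ i, ∀ v ∈ D i y,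
        pr _ i (fderiv ℂ e y (T y v)) = fderiv ℂ e y (T y v) := by
  let A : ∀ y ∈ O, E ≃ₗ[ℂ] E := fun y hy => LinearEquiv.ofLinearMap (T y) (S y)
    (LinearMap.ext (hTS y hy)) (LinearMap.ext (hST y hy))
  have hli' : ∀ y ∈ O, ∀ i, LinearIndependent ℂ (fun j => T y (s i j y)) := fun y hy i =>
    (hli y hy i).map' (A y hy).toLinearMap (A y hy).ker
  have hsp' : ∀ y ∈ O, ∀ i, Submodule.span ℂ (Set.range fun j => T y (s i j y)) =
      (D i y).map (T y : E →ₗ[ℂ] E) := fun y hy i => by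
    rw [← hsp y hy i, Submodule.map_span, ← Set.range_comp]
    rfl
  obtain ⟨P, hP, hP'⟩ := exists_proj (D := fun i y => (D i y).map (T y : E →ₗ[ℂ] E)) hO
    (fun i j y => T y (s i j y)) hs hli' hsp' fun y hy => by
      obtain ⟨h1, h2⟩ := (DirectSum.isInternal_submodule_iff_iSupIndep_and_iSup_eq_top _).1
        (hint y hy)
      refine (DirectSum.isInternal_submodule_iff_iSupIndep_and_iSup_eq_top _).2
        ⟨h1.map_orderIso (Submodule.orderIsoMapComap (A y hy)), ?_⟩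
      rw [← Submodule.map_iSup, h2, Submodule.map_top]
      exact (A y hy).range
  have hk : ∀ y ∈ O, ∀ i v, P i y v = 0 ↔ S y v ∈ ⨆ j ∈ Finset.univ.erase i, D j y := by
    intro y hy i v
    obtain ⟨h1, h2, -, h4⟩ := hP' y hy
    refine ⟨fun h => ?_, fun h => ?_⟩
    · have h5 : v = ∑ j, P j y v := by
        simpa [sum_apply] using (congrArg (· v) h1).symm
      rw [h5, map_sum]
      refine Submodule.sum_mem _ fun j _ => ?_
      by_cases hj : j = i
      · rw [hj, h, map_zero]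
        exact Submodule.zero_mem _
      · obtain ⟨w, hw, h6⟩ := h2 j v
        rw [← h6]
        refine Submodule.mem_iSup_of_mem j (Submodule.mem_iSup_of_mem (by simp [hj]) ?_)
        exact (hST y hy w).symm ▸ hw
    · have h5 : (⨆ j ∈ Finset.univ.erase i, D j y) ≤
          LinearMap.ker ((P i y : E →ₗ[ℂ] E) ∘ₗ (T y : E →ₗ[ℂ] E)) :=
        iSup₂_le fun j hj w hw => h4 i j (Finset.ne_of_mem_erase hj).symm _ ⟨w, hw, rfl⟩
      rw [← hTS y hy v]
      exact h5 h
  obtain ⟨e, h1, h2, h3, h4, h5⟩ := adapted_loc (W := fun j => EuclideanSpace ℂ (Fin (r j)))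
    hO hy₀ hP
    (fun i y hy => ContinuousLinearMap.ext fun v => (hP' y hy).2.2.1 i _ ((hP' y hy).2.1 i v))
    (fun y hy i j hij => ContinuousLinearMap.ext fun v =>
      (hP' y hy).2.2.2 i j hij _ ((hP' y hy).2.1 j v))
    (fun y hy => (hP' y hy).1)
    (fun i U hU hU' a b ha hb h1 h2 y hy => (hk y (hU hy) i _).2 (hI i U hU hU' a b ha hb
      (fun y hy => (hk y (hU hy) i _).1 (h1 y hy)) (fun y hy => (hk y (hU hy) i _).1 (h2 y hy))
      y hy))
    fun i => by
      have h : LinearMap.range (P i y₀ : E →ₗ[ℂ] E) = (D i y₀).map (T y₀ : E →ₗ[ℂ] E) := by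
        refine le_antisymm ?_ fun v hv => ⟨v, (hP' y₀ hy₀).2.2.1 i v hv⟩
        rintro _ ⟨v, rfl⟩
        exact (hP' y₀ hy₀).2.1 i v
      rw [h, ← hsp' y₀ hy₀ i, finrank_span_eq_card (hli' y₀ hy₀ i), finrank_euclideanSpace]
  exact ⟨e, h1, h2, h3, h4, fun y hy i v hv =>
    h5 y hy i _ ((hP' y (h2 hy)).2.2.1 i _ ⟨v, hv, rfl⟩)⟩

theorem adapt_rank {E : Type*} [AddCommGroup E] [Module ℂ E] {r : ℕ} {s : Fin r → E}
    {D : Submodule ℂ E} (h : LinearIndependent ℂ s ∧ Submodule.span ℂ (Set.range s) = D) :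
    Module.finrank ℂ D = r := by
  rw [← h.2, finrank_span_eq_card h.1, Fintype.card_fin]

theorem exists_adapted {E : Type*} [NormedAddCommGroup E] [NormedSpace ℂ E] [FiniteDimensional ℂ E]
    {X : Type*} [TopologicalSpace X] [PreconnectedSpace X] [ChartedSpace E X]
    [IsManifold 𝓘(ℂ, E) ω X] {k : ℕ} {D : Fin k → X → Submodule ℂ E}
    (hD : ∀ i, IsHolSubbundle (E := E) (D i)) (hs : ∀ x, DirectSum.IsInternal fun i => D i x)
    (hint : ∀ I : Finset (Fin k), IsIntegrable (E := E) fun x => ⨆ i ∈ I, D i x) :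
    ∃ r : Fin k → ℕ, ∀ x₀, ∃ ψ : OpenPartialHomeomorph X (∀ j, EuclideanSpace ℂ (Fin (r j))),
      Adapted D ψ ∧ x₀ ∈ ψ.source := by
  rcases isEmpty_or_nonempty X with h | ⟨⟨x₁⟩⟩
  · exact ⟨0, fun x => h.elim x⟩
  have hc : ∀ i, IsLocallyConstant fun x => Module.finrank ℂ (D i x) := fun i =>
    (IsLocallyConstant.iff_exists_open _).2 fun x => by
      obtain ⟨U, hU, hx, r, s, -, h⟩ := hD i x
      have h1 : ∀ y ∈ U, Module.finrank ℂ (D i y) = r := fun y hy => adapt_rank (h y hy)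
      exact ⟨U, hU, hx, fun y hy => (h1 y hy).trans (h1 x hx).symm⟩
  refine ⟨fun i => Module.finrank ℂ (D i x₁), fun x₀ => ?_⟩
  choose U hU hx r s hs₁ hs₂ using fun i => hD i x₀
  have hr : (fun i => Module.finrank ℂ (D i x₁)) = r := funext fun i =>
    ((hc i).apply_eq_of_preconnectedSpace x₁ x₀).trans (adapt_rank (hs₂ i x₀ (hx i)))
  suffices h : ∃ ψ : OpenPartialHomeomorph X (∀ j, EuclideanSpace ℂ (Fin (r j))),
      Adapted D ψ ∧ x₀ ∈ ψ.source by
    subst hr
    exact h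
  have hφ := mdifferentiable_chart (I := 𝓘(ℂ, E)) x₀
  have h0 := mem_chart_source E x₀
  have hV : IsOpen (⋂ i, U i) := isOpen_iInter_of_finite hU
  obtain ⟨e, h1, h2, h3, h4, h5⟩ := adapt_core (D := fun i y => D i ((chartAt E x₀).symm y))
    ((chartAt E x₀).isOpen_inter_preimage_symm hV)
    (T := fun y => mfderiv 𝓘(ℂ, E) 𝓘(ℂ, E) (chartAt E x₀) ((chartAt E x₀).symm y))
    (S := fun y => mfderiv 𝓘(ℂ, E) 𝓘(ℂ, E) (chartAt E x₀).symm y)
    (fun y hy v => congrArg (· v) (hφ.comp_symm_deriv hy.1))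
    (fun y hy v => by
      have h := congrArg (· v) (hφ.symm_comp_deriv ((chartAt E x₀).map_target hy.1))
      rw [(chartAt E x₀).right_inv hy.1] at h
      exact h)
    (fun i j y => s i j ((chartAt E x₀).symm y))
    (fun i j => ((hs₁ i j).chart (hU i) x₀).mono fun y hy => ⟨hy.1, Set.mem_iInter.1 hy.2 i⟩)
    (fun y hy i => (hs₂ i _ (Set.mem_iInter.1 hy.2 i)).1)
    (fun y hy i => (hs₂ i _ (Set.mem_iInter.1 hy.2 i)).2) (fun y _ => hs _)
    (fun i W hW hW' a b ha hb => (hint _).chart x₀ hW' (fun y hy => (hW hy).1) ha hb)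
    (y₀ := chartAt E x₀ x₀) ⟨(chartAt E x₀).map_source h0, by
      rw [Set.mem_preimage, (chartAt E x₀).left_inv h0]
      exact Set.mem_iInter.2 hx⟩
  refine ⟨(chartAt E x₀).trans e, ⟨fun x h => ?_, fun z h => ?_, fun x h i v hv => ?_⟩, h0, h1⟩
  · exact (h3 _ h.2).mdifferentiableAt.comp x (hφ.mdifferentiableAt h.1)
  · exact (hφ.mdifferentiableAt_symm h.2).comp z (h4 _ h.1).mdifferentiableAt
  · have h6 := h5 (chartAt E x₀ x) h.2 i v (by rwa [(chartAt E x₀).left_inv h.1])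
    rw [(chartAt E x₀).left_inv h.1] at h6
    rw [OpenPartialHomeomorph.coe_trans,
      mfderiv_comp x (h3 (chartAt E x₀ x) h.2).mdifferentiableAt (hφ.mdifferentiableAt h.1),
      mfderiv_eq_fderiv]
    exact h6

end Vale.Agent.P278
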