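import Mathlib

/-!
Holomorphic subbundles of the tangent bundle, integrability, Kaehler forms.
-/

namespace Vale.Agent.P278

open scoped Manifold ContDiff

variable {E : Type*} [NormedAddCommGroup E] [NormedSpace ℂ E]
  {X : Type*} [TopologicalSpace X] [ChartedSpace E X]

/-- `s` is a holomorphic vector field (section of the tangent bundle) on `U`. -/
def HolField [IsManifold 𝓘(ℂ, E) ω X] (s : (x : X) → TangentSpace 𝓘(ℂ, E) x) (U : Set X) : Prop :=
  MDifferentiableOn 𝓘(ℂ, E) 𝓘(ℂ, E).tangent (fun x => (⟨x, s x⟩ : TangentBundle 𝓘(ℂ, E) X)) U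

/-- `D` is a holomorphic subbundle of the tangent bundle: it has local holomorphic frames. -/
def IsHolSubbundle [IsManifold 𝓘(ℂ, E) ω X]
    (D : (x : X) → Submodule ℂ (TangentSpace 𝓘(ℂ, E) x)) : Prop :=
  ∀ x₀ : X, ∃ U : Set X, IsOpen U ∧ x₀ ∈ U ∧
    ∃ (r : ℕ) (s : Fin r → (x : X) → TangentSpace 𝓘(ℂ, E) x), (∀ j, HolField (s j) U) ∧
      ∀ x ∈ U, LinearIndependent ℂ (fun j => s j x) ∧
        Submodule.span ℂ (Set.range fun j => s j x) = D x

/-- Local holomorphic sections of `D` are closed under the Lie bracket. -/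
def IsIntegrable [IsManifold 𝓘(ℂ, E) ω X]
    (D : (x : X) → Submodule ℂ (TangentSpace 𝓘(ℂ, E) x)) : Prop :=
  ∀ U : Set X, IsOpen U → ∀ s t : (x : X) → TangentSpace 𝓘(ℂ, E) x, HolField s U → HolField t U →
    (∀ x ∈ U, s x ∈ D x) → (∀ x ∈ U, t x ∈ D x) →
    ∀ x ∈ U, VectorField.mlieBracket 𝓘(ℂ, E) s t x ∈ D x

/-- The coefficient function, in the chart `φ`, of a field `Ω` of real bilinear forms on the
tangent spaces, evaluated on the constant coordinate vector fields `a`, `b`. -/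
noncomputable def inChart (Ω : X → E →L[ℝ] E →L[ℝ] ℝ) (φ : OpenPartialHomeomorph X E)
    (a b : E) (y : E) : ℝ :=
  Ω (φ.symm y) (mfderiv 𝓘(ℂ, E) 𝓘(ℂ, E) φ.symm y a) (mfderiv 𝓘(ℂ, E) 𝓘(ℂ, E) φ.symm y b)

/-- `Ω` is a Kaehler form: a smooth, closed, positive real `(1,1)`-form. -/
structure IsKahlerForm (Ω : X → E →L[ℝ] E →L[ℝ] ℝ) : Prop where
  alt : ∀ x a, Ω x a a = 0
  inv : ∀ x a b, Ω x (Complex.I • a) (Complex.I • b) = Ω x a b
  pos : ∀ x a, a ≠ 0 → 0 < Ω x a (Complex.I • a)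
  smooth : ∀ φ ∈ atlas E X, ∀ a b, ContDiffOn ℝ ∞ (inChart Ω φ a b) φ.target
  closed : ∀ φ ∈ atlas E X, ∀ y ∈ φ.target, ∀ a b c,
    fderiv ℝ (inChart Ω φ b c) y a + fderiv ℝ (inChart Ω φ c a) y b +
      fderiv ℝ (inChart Ω φ a b) y c = 0

universe u

/-- `M` is biholomorphic to a product of connected simply connected complex manifolds `Y i` (modelled
on `W i`) by a map whose differential sends `{v | D i m v}` onto the tangent space of the `i`-th
factor. -/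
def Decomp {ι : Type} [Fintype ι] (W : ι → Type) [∀ i, NormedAddCommGroup (W i)]
    [∀ i, NormedSpace ℂ (W i)] (E : Type*) [NormedAddCommGroup E] [NormedSpace ℂ E]
    {M : Type u} [TopologicalSpace M] [ChartedSpace E M] (D : ι → M → E → Prop) : Prop :=
  ∃ (Y : ι → Type u) (_ : ∀ i, TopologicalSpace (Y i)) (_ : ∀ i, ChartedSpace (W i) (Y i)),
    (∀ i, IsManifold 𝓘(ℂ, W i) ω (Y i) ∧ T2Space (Y i) ∧ SecondCountableTopology (Y i) ∧
      ConnectedSpace (Y i) ∧ SimplyConnectedSpace (Y i)) ∧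
    ∃ Φ : M ≃ₜ ∀ i, Y i,
      MDifferentiable 𝓘(ℂ, E) (ModelWithCorners.pi fun i => 𝓘(ℂ, W i)) Φ ∧
      MDifferentiable (ModelWithCorners.pi fun i => 𝓘(ℂ, W i)) 𝓘(ℂ, E) Φ.symm ∧
      ∀ m i (w : ∀ j, W j), (∃ v, D i m v ∧
        mfderiv 𝓘(ℂ, E) (ModelWithCorners.pi fun i => 𝓘(ℂ, W i)) Φ m v = w) ↔
          ∀ j, j ≠ i → w j = 0

end Vale.Agent.P278
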