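import Mathlib

/-!
P278 task Osg1: a complex differentiable map on an open subset of a finite-dimensional complex
space has complex differentiable derivative, hence is smooth.

Plan. `osg_fderiv`: fix `x₀ ∈ U`, `closedBall x₀ (3r) ⊆ U` (compact: `f` bounded by `M` and uniformly
continuous there). By `differentiableAt_clm_apply` (finite-dimensional source) it suffices to treat
`x ↦ fderiv ℂ f x v` for a fixed `v`; choose `t > 0` with `t ‖v‖ ≤ r`. For `x ∈ ball x₀ r` the one
variable map `c ↦ f (x + c • v)` is differentiable on `closedBall 0 t`, its derivative at `0` is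
`fderiv ℂ f x v`, so by the Cauchy formula for the derivative
(`Complex.two_pi_I_inv_smul_circleIntegral_sub_sq_inv_smul_of_differentiable_on_off_countable` or
`DifferentiableOn.deriv_eq_smul_circleIntegral`) `fderiv ℂ f x v = (2πi)⁻¹ ∮ c⁻² f (x + c • v)`.
This gives (a) the Cauchy bound `‖fderiv ℂ f x‖ ≤ M / r` on `ball x₀ (2r)`
(`Complex.norm_deriv_le_of_forall_mem_sphere_norm_le`), (b) continuity of `x ↦ fderiv ℂ f x v`
(continuity of a parametric interval integral) hence of `fderiv ℂ f` on `U` (`continuousOn_clm_apply`),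
(c) differentiability in `x` by `intervalIntegral.hasFDerivAt_integral_of_dominated_of_fderiv_le`
(unfold `circleIntegral`).
`osg_iter`: induction, `iteratedFDeriv_succ_eq_comp_left` and `osg_fderiv` applied to
`iteratedFDeriv ℂ n f`. `osg_smooth`: `contDiffOn_of_differentiableOn` and
`iteratedFDerivWithin_of_isOpen`.
Auxiliary names: start with `osg1_`.
-/

namespace Vale.Agent.P278

open scoped ContDiff

open Metric Filter Topology MeasureTheory

section aux

variable {E F : Type*} [NormedAddCommGroup E] [NormedSpace ℂ E]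
  [NormedAddCommGroup F] [NormedSpace ℂ F]

theorem osg1_line {f : E → F} {x v : E} {c : ℂ} (h : DifferentiableAt ℂ f (x + c • v)) :
    HasDerivAt (fun z : ℂ => f (x + z • v)) (fderiv ℂ f (x + c • v) v) c := by
  have h1 : HasDerivAt (fun z : ℂ => x + z • v) v c := by
    simpa using ((hasDerivAt_id c).smul_const v).const_add x
  exact h.hasFDerivAt.comp_hasDerivAt c h1

theorem osg1_mem {x v : E} {R t : ℝ} (ht : t * ‖v‖ ≤ R) {z : ℂ} (hz : z ∈ closedBall (0 : ℂ) t) :
    x + z • v ∈ closedBall x R := by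
  rw [mem_closedBall_zero_iff] at hz
  rw [mem_closedBall, dist_eq_norm, add_sub_cancel_left, norm_smul]
  exact (mul_le_mul_of_nonneg_right hz (norm_nonneg _)).trans ht

theorem osg1_bound {f : E → F} {x : E} {R M : ℝ} (hR : 0 < R)
    (hd : ∀ y ∈ closedBall x R, DifferentiableAt ℂ f y) (hM : ∀ y ∈ closedBall x R, ‖f y‖ ≤ M) :
    ‖fderiv ℂ f x‖ ≤ M / R := by
  have hM0 : 0 ≤ M := (norm_nonneg _).trans (hM x (mem_closedBall_self hR.le))
  refine ContinuousLinearMap.opNorm_le_bound _ (div_nonneg hM0 hR.le) fun v => ?_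
  by_cases hv : v = 0
  · simp [hv]
  have hn : 0 < ‖v‖ := norm_pos_iff.2 hv
  have ht : R / ‖v‖ * ‖v‖ ≤ R := by rw [div_mul_cancel₀ _ hn.ne']
  have h1 : DifferentiableOn ℂ (fun z : ℂ => f (x + z • v)) (closedBall 0 (R / ‖v‖)) :=
    fun z hz => (osg1_line (hd _ (osg1_mem ht hz))).differentiableAt.differentiableWithinAt
  have h2 := Complex.norm_deriv_le_of_forall_mem_sphere_norm_le (div_pos hR hn)
    (h1.diffContOnCl_ball subset_rfl) fun z hz => hM _ (osg1_mem ht (sphere_subset_closedBall hz))
  have h3 : DifferentiableAt ℂ f (x + (0 : ℂ) • v) := by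
    simpa using hd x (mem_closedBall_self hR.le)
  rw [(osg1_line h3).deriv] at h2
  simp only [zero_smul, add_zero] at h2
  refine h2.trans (le_of_eq ?_)
  field_simp

theorem osg1_cont [FiniteDimensional ℂ E] {f : E → F} {U : Set E}
    (hU : IsOpen U) (hf : DifferentiableOn ℂ f U) : ContinuousOn (fderiv ℂ f) U := by
  have : ProperSpace E := FiniteDimensional.proper ℂ E
  intro x hx
  obtain ⟨ε, hε, hb⟩ := nhds_basis_closedBall.mem_iff.1 (hU.mem_nhds hx)
  have hd : ∀ y ∈ closedBall x ε, DifferentiableAt ℂ f y :=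
    fun y hy => hf.differentiableAt (hU.mem_nhds (hb hy))
  have huc := (isCompact_closedBall x ε).uniformContinuousOn_of_continuous
    (hf.continuousOn.mono hb)
  refine ContinuousAt.continuousWithinAt (Metric.continuousAt_iff.2 fun η hη => ?_)
  obtain ⟨δ, hδ, hδ'⟩ := Metric.uniformContinuousOn_iff.1 huc (η / 2 * (ε / 2)) (by positivity)
  refine ⟨min δ (ε / 2), by positivity, fun y hy => ?_⟩
  have hy1 : dist y x < δ := hy.trans_le (min_le_left _ _)
  have hy2 : dist y x < ε / 2 := hy.trans_le (min_le_right _ _)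
  have m1 : ∀ z ∈ closedBall x (ε / 2), z ∈ closedBall x ε :=
    fun z hz => closedBall_subset_closedBall (by linarith) hz
  have e1 : ∀ z : E, dist (z + (y - x)) z = dist y x := fun z => by
    rw [dist_eq_norm, dist_eq_norm, add_sub_cancel_left]
  have m2 : ∀ z ∈ closedBall x (ε / 2), z + (y - x) ∈ closedBall x ε := by
    intro z hz
    rw [mem_closedBall] at hz ⊢
    have := dist_triangle (z + (y - x)) z x
    rw [e1] at this
    linarith
  have hg : ∀ z ∈ closedBall x (ε / 2), HasFDerivAt (fun w => f (w + (y - x)) - f w)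
      (fderiv ℂ f (z + (y - x)) - fderiv ℂ f z) z := by
    intro z hz
    refine HasFDerivAt.sub ?_ (hd z (m1 z hz)).hasFDerivAt
    exact (hasFDerivAt_comp_add_right (y - x)).2 (hd _ (m2 z hz)).hasFDerivAt
  have h1 := osg1_bound (f := fun w => f (w + (y - x)) - f w) (M := η / 2 * (ε / 2))
    (half_pos hε) (fun z hz => (hg z hz).differentiableAt) fun z hz => by
      rw [← dist_eq_norm]
      exact (hδ' _ (m2 z hz) _ (m1 z hz) (by rwa [e1])).le
  rw [(hg x (mem_closedBall_self (half_pos hε).le)).fderiv, add_sub_cancel,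
    mul_div_cancel_right₀ _ (half_pos hε).ne'] at h1
  rw [dist_eq_norm]
  linarith

theorem osg1_apply [FiniteDimensional ℂ E] [CompleteSpace F] {f : E → F} {U : Set E}
    (hU : IsOpen U) (hf : DifferentiableOn ℂ f U) (v : E) {x₀ : E} (hx : x₀ ∈ U) :
    DifferentiableAt ℂ (fun x => fderiv ℂ f x v) x₀ := by
  have : ProperSpace E := FiniteDimensional.proper ℂ E
  obtain ⟨ε, hε, hb⟩ := nhds_basis_closedBall.mem_iff.1 (hU.mem_nhds hx)
  have hc := osg1_cont hU hf
  obtain ⟨M, hM⟩ := (isCompact_closedBall x₀ ε).exists_bound_of_continuousOn (hc.mono hb)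
  set t : ℝ := ε / 2 / (‖v‖ + 1) with ht
  have ht0 : 0 < t := by positivity
  have ht1 : t * ‖v‖ ≤ ε / 2 := by
    rw [ht, div_mul_eq_mul_div, div_le_iff₀ (by positivity)]
    nlinarith [norm_nonneg v]
  have m1 : ∀ x ∈ ball x₀ (ε / 2), ∀ z ∈ closedBall (0 : ℂ) t, x + z • v ∈ closedBall x₀ ε := by
    intro x hx z hz
    have h1 := osg1_mem (x := x) ht1 hz
    rw [mem_closedBall] at h1 ⊢
    rw [mem_ball] at hx
    have := dist_triangle (x + z • v) x x₀
    linarith
  have hd : ∀ y ∈ closedBall x₀ ε, DifferentiableAt ℂ f y :=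
    fun y hy => hf.differentiableAt (hU.mem_nhds (hb hy))
  have m2 : ∀ θ : ℝ, circleMap 0 t θ ∈ closedBall (0 : ℂ) t :=
    fun θ => circleMap_mem_closedBall 0 ht0.le θ
  set k : ℝ → ℂ := fun θ => deriv (circleMap 0 t) θ * (1 / (circleMap 0 t θ - 0) ^ 2) with hk
  have kc : Continuous k := by
    have h1 : Continuous (circleMap 0 t) := continuous_circleMap 0 t
    simp only [hk, deriv_circleMap]
    refine (h1.mul continuous_const).mul (continuous_const.div ((h1.sub continuous_const).pow 2)
      fun θ => pow_ne_zero 2 (sub_ne_zero.2 (circleMap_ne_center ht0.ne')))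
  have hl : ∀ x, Continuous fun θ : ℝ => x + circleMap 0 t θ • v := fun x =>
    continuous_const.add ((continuous_circleMap 0 t).smul continuous_const)
  have c1 : ∀ x ∈ ball x₀ (ε / 2), Continuous fun θ => k θ • f (x + circleMap 0 t θ • v) :=
    fun x hx => kc.smul (hf.continuousOn.comp_continuous (hl x) fun θ => hb (m1 x hx _ (m2 θ)))
  have c2 : Continuous fun θ => k θ • fderiv ℂ f (x₀ + circleMap 0 t θ • v) :=
    kc.smul (hc.comp_continuous (hl x₀) fun θ => hb (m1 x₀ (mem_ball_self (half_pos hε)) _ (m2 θ)))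
  have hI := intervalIntegral.hasFDerivAt_integral_of_dominated_of_fderiv_le (𝕜 := ℂ)
    (μ := volume) (a := 0) (b := 2 * Real.pi)
    (F := fun x θ => k θ • f (x + circleMap 0 t θ • v))
    (F' := fun x θ => k θ • fderiv ℂ f (x + circleMap 0 t θ • v))
    (bound := fun θ => ‖k θ‖ * M) (ball_mem_nhds x₀ (half_pos hε))
    (Filter.mem_of_superset (ball_mem_nhds x₀ (half_pos hε))
      fun x hx => (c1 x hx).aestronglyMeasurable)
    ((c1 x₀ (mem_ball_self (half_pos hε))).intervalIntegrable _ _) c2.aestronglyMeasurable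
    (Eventually.of_forall fun θ _ x hx => by
      rw [norm_smul]
      exact mul_le_mul_of_nonneg_left (hM _ (m1 x hx _ (m2 θ))) (norm_nonneg _))
    ((kc.norm.mul continuous_const).intervalIntegrable _ _)
    (Eventually.of_forall fun θ _ x hx => by
      refine HasFDerivAt.const_smul ?_ (k θ)
      exact (hasFDerivAt_comp_add_right (circleMap 0 t θ • v)).2
        (hd _ (m1 x hx _ (m2 θ))).hasFDerivAt)
  have h2 : (2 * Real.pi * Complex.I : ℂ) ≠ 0 := Complex.two_pi_I_ne_zero
  refine (hI.differentiableAt.const_smul (2 * Real.pi * Complex.I : ℂ)⁻¹).congr_of_eventuallyEq ?_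
  filter_upwards [ball_mem_nhds x₀ (half_pos hε)] with x hx
  have h1 : DifferentiableOn ℂ (fun z : ℂ => f (x + z • v)) (closedBall 0 t) :=
    fun z hz => (osg1_line (hd _ (m1 x hx z hz))).differentiableAt.differentiableWithinAt
  have h3 := h1.deriv_eq_smul_circleIntegral ht0
  rw [(osg1_line (hd _ (m1 x hx 0 (mem_closedBall_self ht0.le)))).deriv, circleIntegral] at h3
  simp only [zero_smul, add_zero, smul_smul] at h3
  simp only [Pi.smul_apply, hk]
  rw [h3, smul_smul, inv_mul_cancel₀ h2, one_smul]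

end aux

theorem osg_fderiv {E F : Type*} [NormedAddCommGroup E] [NormedSpace ℂ E] [FiniteDimensional ℂ E]
    [NormedAddCommGroup F] [NormedSpace ℂ F] [CompleteSpace F] {f : E → F} {U : Set E}
    (hU : IsOpen U) (hf : DifferentiableOn ℂ f U) : DifferentiableOn ℂ (fderiv ℂ f) U := by
  let d := Module.finrank ℂ E
  have hd : d = Module.finrank ℂ (Fin d → ℂ) := (Module.finrank_fin_fun ℂ).symm
  let e₁ := ContinuousLinearEquiv.ofFinrankEq hd
  let e₂ := (e₁.arrowCongr (1 : F ≃L[ℂ] F)).trans (ContinuousLinearEquiv.piRing (Fin d))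
  rw [← Function.id_comp (fderiv ℂ f), ← e₂.symm_comp_self]
  exact e₂.symm.differentiable.comp_differentiableOn (differentiableOn_pi.mpr fun i x hx =>
    (osg1_apply hU hf _ hx).differentiableWithinAt)

theorem osg1_nat {E F : Type*} [NormedAddCommGroup E] [NormedSpace ℂ E] [FiniteDimensional ℂ E]
    [NormedAddCommGroup F] [NormedSpace ℂ F] [CompleteSpace F] {U : Set E} (hU : IsOpen U)
    (n : ℕ) : ∀ f : E → F, DifferentiableOn ℂ f U → ContDiffOn ℂ n f U := by
  induction n with
  | zero => intro f hf; exact contDiffOn_zero.2 hf.continuousOn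
  | succ n ih =>
    intro f hf
    rw [Nat.cast_succ, contDiffOn_succ_iff_fderiv_of_isOpen hU]
    refine ⟨hf, by simp, ?_⟩
    rw [contDiffOn_clm_apply]
    intro y
    exact ih _ fun x hx => (osg1_apply hU hf y hx).differentiableWithinAt

theorem osg1_smooth {E F : Type*} [NormedAddCommGroup E] [NormedSpace ℂ E] [FiniteDimensional ℂ E]
    [NormedAddCommGroup F] [NormedSpace ℂ F] [CompleteSpace F] {f : E → F} {U : Set E}
    (hU : IsOpen U) (hf : DifferentiableOn ℂ f U) : ContDiffOn ℂ ∞ f U :=
  contDiffOn_infty.2 fun n => osg1_nat hU n f hf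

theorem osg_iter {E F : Type*} [NormedAddCommGroup E] [NormedSpace ℂ E] [FiniteDimensional ℂ E]
    [NormedAddCommGroup F] [NormedSpace ℂ F] [CompleteSpace F] {f : E → F} {U : Set E}
    (hU : IsOpen U) (hf : DifferentiableOn ℂ f U) (n : ℕ) :
    DifferentiableOn ℂ (iteratedFDeriv ℂ n f) U := by
  have h1 : DifferentiableOn ℂ (iteratedFDerivWithin ℂ n f U) U :=
    (osg1_smooth hU hf).differentiableOn_iteratedFDerivWithin
      (by exact_mod_cast ENat.natCast_lt_top n) hU.uniqueDiffOn
  exact h1.congr fun x hx => (iteratedFDerivWithin_of_isOpen n hU hx).symm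

theorem osg_smooth {E F : Type*} [NormedAddCommGroup E] [NormedSpace ℂ E] [FiniteDimensional ℂ E]
    [NormedAddCommGroup F] [NormedSpace ℂ F] [CompleteSpace F] {f : E → F} {U : Set E}
    (hU : IsOpen U) (hf : DifferentiableOn ℂ f U) : ContDiffOn ℂ ∞ f U := by
  exact osg1_smooth hU hf

end Vale.Agent.P278
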